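import Vale.Agent.P284.H402.B.TF

/-!
# P284 (helper402): the test forms `θ_1 ∧ … ∧ θ_q ∧ ∂f`, part 2
-/

open scoped Manifold ContDiff Topology Pointwise ComplexConjugate ComplexOrder Matrix
open Filter Set Metric MeasureTheory

noncomputable section

namespace Vale.Agent.P284.H402.B

open Vale.Agent.P272.K Vale.Agent.P272.K.C2 Vale.Agent.P284.H248 Vale.Agent.P284.H894 Vale.Agent.P284.H894.G
  Vale.Agent.P284.H894.V Vale.Agent.P284.H402.A Vale.Agent.P284.H366 Vale.Agent.P284.H639.V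

section
variable {n q : ℕ}

lemma DB_holo {g : Cm n → ℂ} {z : Cm n} (h : DifferentiableAt ℂ g z) (t : Cm n) : DB g z t = 0 := by
  rw [DB_apply, h.fderiv_restrictScalars ℝ]
  simp only [ContinuousLinearMap.coe_restrictScalars', map_smul, smul_smul, Complex.I_mul_I]
  simp

lemma mc_sm {m : WithTop ℕ∞} {M : Cm n → Matrix (Fin n) (Fin q) ℂ} {α : Cm n → Fin n → ℂ} {z : Cm n}
    (hM : MC m M z) (hα : ∀ j, ContDiffAt ℝ m (fun y => α y j) z) :
    MC m (fun y => sm (M y) (α y)) z := by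
  intro i j
  refine Fin.lastCases ?_ (fun j => ?_) j
  · simp only [sm_last]
    exact hα i
  · simp only [sm_cast]
    exact hM i j

lemma smooth_wd {p : ℕ} {A : Cm n → Matrix (Fin n) (Fin p) ℂ} {z : Cm n} (hA : MC ∞ A z)
    (ξ : Fin p → Cm n) : ContDiffAt ℝ ∞ (fun y => wd (A y) ξ) z := by
  simp only [wd_apply, vm_eq]
  exact MC.det (MC.mul (mc_const _) hA)

/-- the antilinear derivative of `θ_1 ∧ … ∧ θ_q ∧ ∂f` -/
lemma DB_sm {M : Cm n → Matrix (Fin n) (Fin q) ℂ} {f : Cm n → ℝ} {z : Cm n}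
    (hM : ∀ i j, DifferentiableAt ℂ (fun y => M y i j) z) (hf : ContDiffAt ℝ ∞ f z)
    (ξ : Fin (q + 1) → Cm n) (t : Cm n) :
    DB (fun y => wd (sm (M y) (pd f y)) ξ) z t =
      wd (sm (M z) (cHess f z *ᵥ fun j => conj (t j))) ξ := by
  have hpd : ∀ j, ContDiffAt ℝ ∞ (fun y => pd f y j) z := fun j => smooth_pd hf j
  have hA : ∀ l r, DifferentiableAt ℝ (fun y => sm (M y) (pd f y) l r) z := by
    intro l r
    refine Fin.lastCases ?_ (fun r => ?_) r
    · simp only [sm_last]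
      exact (hpd l).differentiableAt (by norm_num)
    · simp only [sm_cast]
      exact (hM l r).restrictScalars ℝ
  rw [DB_wd hA ξ t, Fin.sum_univ_castSucc]
  have h1 : ∀ r : Fin q, wd ((sm (M z) (pd f z)).updateCol r.castSucc fun l =>
      DB (fun y => sm (M y) (pd f y) l r.castSucc) z t) ξ = 0 := by
    intro r
    have e : (fun l => DB (fun y => sm (M y) (pd f y) l r.castSucc) z t) = fun _ => 0 := by
      funext l
      simp only [sm_cast]
      exact DB_holo (hM l r) t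
    rw [e]
    exact wd_col_zero _ _
  rw [Finset.sum_eq_zero fun r _ => h1 r, zero_add, sm_update_last]
  congr 2
  congr 1
  funext l
  simp only [sm_last]
  rw [DB_complex]
  simp only [Matrix.mulVec, dotProduct]
  refine Finset.sum_congr rfl fun j _ => ?_
  rw [mul_comm]
  congr 1
  have h2 : ContDiffAt ℝ 2 (fun y => (f y : ℂ)) z :=
    (contDiffAt_ofReal hf).of_le H730.V.two_le
  exact (Vale.Agent.P272.K.INT.dz_dzb_comm h2).symm

lemma closed_sm {M : Cm n → Matrix (Fin n) (Fin q) ℂ} {f : Cm n → ℝ} {z : Cm n}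
    (hM : ∀ i j, DifferentiableAt ℂ (fun y => M y i j) z) (hf : ContDiffAt ℝ ∞ f z)
    (hcl : ∀ i j k, dz k (fun y => M y i j) z = dz i (fun y => M y k j) z)
    (ξ : Fin (q + 1 + 1) → Cm n) :
    ∑ i : Fin (q + 1 + 1), (-1 : ℂ) ^ (i : ℕ) *
      DH (fun y => wd (sm (M y) (pd f y)) (i.removeNth ξ)) z (ξ i) = 0 := by
  have hpd : ∀ j, ContDiffAt ℝ ∞ (fun y => pd f y j) z := fun j => smooth_pd hf j
  refine closed_wd (A := fun y => sm (M y) (pd f y)) (fun l r => ?_) (fun r l m => ?_) ξ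
  · refine Fin.lastCases ?_ (fun r => ?_) r
    · simp only [sm_last]
      exact (hpd l).differentiableAt (by norm_num)
    · simp only [sm_cast]
      exact (hM l r).restrictScalars ℝ
  · refine Fin.lastCases ?_ (fun r => ?_) r
    · simp only [sm_last]
      have h2 : ContDiffAt ℝ 2 (fun y => (f y : ℂ)) z :=
        (contDiffAt_ofReal hf).of_le H730.V.two_le
      exact Vale.Agent.P272.K.INT.dz_dz_comm h2
    · simp only [sm_cast]
      exact hcl l r m

/-- norm of the antilinear derivative -/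
lemma norm_DB_sq (g : Cm n → ℂ) (z : Cm n) :
    ‖DB g z‖ ^ 2 ≤ n * ∑ j, ‖DB g z (Pi.single j 1)‖ ^ 2 := by
  have h0 : ∀ j, DB g z (Pi.single j 1) = dzb j g z := by
    intro j
    rw [DB_complex, Finset.sum_eq_single j]
    · simp
    · intro k _ hk
      simp [Pi.single_eq_of_ne hk]
    · intro h
      exact absurd (Finset.mem_univ _) h
  have h1 : ‖DB g z‖ ≤ ∑ j, ‖DB g z (Pi.single j 1)‖ := by
    refine ContinuousLinearMap.opNorm_le_bound _ (Finset.sum_nonneg fun j _ => norm_nonneg _)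
      fun t => ?_
    rw [DB_complex, Finset.sum_mul]
    refine (norm_sum_le _ _).trans (Finset.sum_le_sum fun j _ => ?_)
    rw [norm_mul, RCLike.norm_conj, h0, mul_comm]
    exact mul_le_mul_of_nonneg_left (norm_le_pi_norm t j) (norm_nonneg _)
  calc ‖DB g z‖ ^ 2 ≤ (∑ j, ‖DB g z (Pi.single j 1)‖) ^ 2 :=
        pow_le_pow_left₀ (norm_nonneg _) h1 2
    _ ≤ (Finset.univ : Finset (Fin n)).card * ∑ j, ‖DB g z (Pi.single j 1)‖ ^ 2 :=
        sq_sum_le_card_mul_sum_sq
    _ = _ := by rw [Finset.card_univ, Fintype.card_fin]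

/-- **pointwise bound of the antilinear derivative** -/
lemma DB_le {M : Cm n → Matrix (Fin n) (Fin q) ℂ} {f : Cm n → ℝ} {z : Cm n}
    (hM : ∀ i j, DifferentiableAt ℂ (fun y => M y i j) z) (hf : ContDiffAt ℝ ∞ f z)
    {w : Matrix (Fin n) (Fin n) ℂ} (hw : w.PosDef) {Λ : ℝ}
    (hΛ : ((Λ : ℂ) • (1 : Matrix (Fin n) (Fin n) ℂ) - w).PosSemidef)
    (ξ : Fin (q + 1) → Cm n) :
    ‖DB (fun y => wd (sm (M y) (pd f y)) ξ) z‖ ^ 2 ≤
      n * (bX w ξ * (Λ * tr2 (AA w (M z) 0) w⁻¹ (cHess f z))) := by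
  have hx : (cHess f z).IsHermitian := by
    have h2 : ContDiffAt ℝ 2 f z := hf.of_le H730.V.two_le
    exact Vale.Agent.P272.K.C2.cHess_isHermitian h2
  refine (norm_DB_sq _ _).trans (mul_le_mul_of_nonneg_left ?_ (Nat.cast_nonneg _))
  have h1 : ∀ j, ‖DB (fun y => wd (sm (M y) (pd f y)) ξ) z (Pi.single j 1)‖ ^ 2 ≤
      bX w ξ * qf (AA w (M z) 0) (fun l => cHess f z l j) (fun l => cHess f z l j) := by
    intro j
    rw [DB_sm hM hf]
    have e : (cHess f z *ᵥ fun k => conj ((Pi.single j 1 : Cm n) k)) = fun l => cHess f z l j := by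
      funext l
      simp only [Matrix.mulVec, dotProduct]
      rw [Finset.sum_eq_single j]
      · simp
      · intro k _ hk
        simp [Pi.single_eq_of_ne hk]
      · intro h
        exact absurd (Finset.mem_univ _) h
    rw [e]
    exact wd_le hw _ _ _
  calc ∑ j, ‖DB (fun y => wd (sm (M y) (pd f y)) ξ) z (Pi.single j 1)‖ ^ 2
      ≤ ∑ j, bX w ξ * qf (AA w (M z) 0) (fun l => cHess f z l j) (fun l => cHess f z l j) :=
        Finset.sum_le_sum fun j _ => h1 j
    _ = bX w ξ * ∑ j, qf (AA w (M z) 0) (fun l => cHess f z l j) (fun l => cHess f z l j) :=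
        (Finset.mul_sum _ _ _).symm
    _ ≤ _ := mul_le_mul_of_nonneg_left
        (sum_qf_le hw hΛ (H279.a2Stmt.herm w (M z) 0 hw le_rfl) hx) (bX_nonneg hw ξ)

end

section
variable {n q : ℕ} {Γ : Type} [Group Γ] {C : Coc n Γ} {f : Γ → C.I → Cm n → ℝ}

lemma jac_mulVec {a b : C.I} {z : Cm n} (hz : z ∈ C.O a b) (v : Cm n) :
    jac C a b z *ᵥ v = fderiv ℂ (C.T a b) z v := by
  have hT : DifferentiableAt ℂ (C.T a b) z := (T_hol C hz).self_of_nhds
  funext p
  have e : v = ∑ i, v i • (Pi.single i 1 : Cm n) := pi_eq_sum_univ' v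
  conv_rhs => rw [e, map_sum, Finset.sum_apply]
  simp only [Matrix.mulVec, dotProduct]
  refine Finset.sum_congr rfl fun i _ => ?_
  rw [map_smul, Pi.smul_apply, smul_eq_mul, mul_comm]
  congr 1
  exact Vale.Agent.P272.K.jmat_apply hT p i

/-- **the test form `θ_1 ∧ … ∧ θ_q ∧ ∂f`** -/
def tf (θ : HF C q) (hf : IsTst C f) : TForm C (q + 1) where
  s γ a z := (wd (sm (θ.th a z) (pd (f γ a) z))).toAlternatingMap
  S := hf.fin.toFinset
  out := by
    intro γ hγ a z hz
    have h1 : ∀ b, ∀ y ∈ C.V b, f γ b y = 0 := by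
      intro b y hy
      by_contra hne
      exact hγ (hf.fin.mem_toFinset.2 ⟨b, y, hy, hne⟩)
    have h2 : pd (f γ a) z = 0 := by
      funext j
      have h3 : (fun y => (f γ a y : ℂ)) =ᶠ[𝓝 z] fun _ => 0 := by
        filter_upwards [isOpen_ball.mem_nhds hz] with y hy
        rw [h1 a y hy]
        simp
      rw [pd, dz_congr h3, C2.dz_const]
      rfl
    rw [h2, wd_sm_zero]
    rfl
  smooth := by
    intro γ a ξ z hz
    exact smooth_wd (mc_sm (th_mc θ hz) fun j => smooth_pd (hf.smooth γ a z hz) j) ξ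
  compat := by
    intro γ a b z hz _ _ ξ
    show wd (sm (θ.th a z) (pd (f γ a) z)) ξ = wd (sm (θ.th b (C.T a b z))
      (pd (f (γ * C.κ a b z) b) (C.T a b z))) fun i => fderiv ℂ (C.T a b) z (ξ i)
    rw [θ.change a b z hz, pd_law hf γ hz, ← sm_mul, wd_comp]
    congr 1
    funext i
    exact jac_mulVec hz (ξ i)

end

end Vale.Agent.P284.H402.B
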