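import Vale.Agent.P284.H402.B.TF2
import Vale.Agent.P284.H15.FL.Lim

/-!
# P284 (helper402): the normalised sequence of almost relatively pluriharmonic functions
-/

open scoped Manifold ContDiff Topology Pointwise ComplexConjugate ComplexOrder Matrix
open Filter Set Metric MeasureTheory

noncomputable section

namespace Vale.Agent.P284.H402.B

open Vale.Agent.P272.K Vale.Agent.P272.K.C2 Vale.Agent.P284.H248 Vale.Agent.P284.H894
  Vale.Agent.P284.H894.G Vale.Agent.P284.H894.V Vale.Agent.P284.H402.A Vale.Agent.P284.H639.V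

/-! ### Homogeneity -/

section hom
variable {n q : ℕ}

lemma tr1_hom (A x : Matrix (Fin n) (Fin n) ℂ) (r : ℝ) : tr1 A ((r : ℂ) • x) = r * tr1 A x := by
  rw [tr1, tr1, Matrix.mul_smul, Matrix.trace_smul, smul_eq_mul, Complex.re_ofReal_mul]

lemma tr2_hom (A B x : Matrix (Fin n) (Fin n) ℂ) (r : ℝ) :
    tr2 A B ((r : ℂ) • x) = r ^ 2 * tr2 A B x := by
  rw [tr2, tr2, Matrix.mul_smul, Matrix.mul_smul, Matrix.smul_mul, Matrix.mul_smul, smul_smul,
    Matrix.trace_smul, smul_eq_mul, ← Complex.ofReal_mul, Complex.re_ofReal_mul, pow_two]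

lemma ee_hom (w : Matrix (Fin n) (Fin n) ℂ) (θ : Matrix (Fin n) (Fin q) ℂ) (α : Fin n → ℂ) (r : ℝ) :
    ee w θ ((r : ℂ) • α) = r ^ 2 * ee w θ α := by
  unfold ee
  rw [Finset.mul_sum]
  refine Finset.sum_congr rfl fun k _ => ?_
  have e : θ.updateCol k ((r : ℂ) • α) =
      θ.updateCol k α * Matrix.diagonal (Function.update (fun _ => (1 : ℂ)) k (r : ℂ)) := by
    ext i j
    rw [Matrix.mul_diagonal]
    by_cases h : j = k
    · subst h
      rw [Matrix.updateCol_self, Matrix.updateCol_self, Function.update_self, Pi.smul_apply,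
        smul_eq_mul, mul_comm]
    · rw [Matrix.updateCol_ne h, Matrix.updateCol_ne h, Function.update_of_ne h, mul_one]
  have hd : (Matrix.diagonal (Function.update (fun _ => (1 : ℂ)) k (r : ℂ))).det = (r : ℂ) := by
    rw [Matrix.det_diagonal, Finset.prod_update_of_mem (Finset.mem_univ k)]
    simp
  rw [e, Matrix.conjTranspose_mul]
  have e2 : (Matrix.diagonal (Function.update (fun _ => (1 : ℂ)) k (r : ℂ)))ᴴ *
      (θ.updateCol k α)ᴴ * w⁻¹ * (θ.updateCol k α *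
        Matrix.diagonal (Function.update (fun _ => (1 : ℂ)) k (r : ℂ))) =
      (Matrix.diagonal (Function.update (fun _ => (1 : ℂ)) k (r : ℂ)))ᴴ *
      ((θ.updateCol k α)ᴴ * w⁻¹ * θ.updateCol k α) *
        Matrix.diagonal (Function.update (fun _ => (1 : ℂ)) k (r : ℂ)) := by
    simp only [Matrix.mul_assoc]
  rw [e2, Matrix.det_mul, Matrix.det_mul, Matrix.det_conjTranspose, hd, RCLike.star_def,
    Complex.conj_ofReal, mul_comm, ← mul_assoc, ← Complex.ofReal_mul, Complex.re_ofReal_mul, pow_two]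

end hom

section glob
variable {n q : ℕ} {Γ : Type} [Group Γ] {C : Coc n Γ} {f m : Γ → C.I → Cm n → ℝ}

/-- `r f` -/
def sc (r : ℝ) (f : Γ → C.I → Cm n → ℝ) (γ : Γ) (a : C.I) (z : Cm n) : ℝ := r * f γ a z

lemma isTst_sc (r : ℝ) (hf : IsTst C f) : IsTst C (sc r f) := (r • (⟨f, hf⟩ : Asm.tst C)).2

lemma fam_sc (r : ℝ) (hm : Fam C m) : Fam C (sc r m) := fam_const_mul hm r

lemma pd_sc (r : ℝ) (hf : IsTst C f) (γ : Γ) {a : C.I} {z : Cm n} (hz : z ∈ C.Ω a) :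
    pd (sc r f γ a) z = (r : ℂ) • pd (f γ a) z :=
  pd_smul r ((hf.smooth γ a z hz).differentiableAt (by norm_num))

lemma cHess_sc (r : ℝ) (hf : IsTst C f) (γ : Γ) {a : C.I} {z : Cm n} (hz : z ∈ C.Ω a) :
    cHess (sc r f γ a) z = (r : ℂ) • cHess (f γ a) z :=
  C2.cHess_const_mul r ((hf.smooth γ a z hz).of_le H730.V.two_le)

variable (K : KM C) (θ : HF C q)

lemma vA_sc (r : ℝ) (hf : IsTst C f) (γ : Γ) {a : C.I} {z : Cm n} (hz : z ∈ C.Ω a) :
    vA K θ 0 (sc r f) (sc r f) γ a z = r ^ 2 * vA K θ 0 f f γ a z := by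
  rw [vA, pd_sc r hf γ hz, qf_smul_left, qf_smul_right, vA]
  ring

lemma oA_sc (r : ℝ) (hf : IsTst C f) (γ : Γ) {a : C.I} {z : Cm n} (hz : z ∈ C.Ω a) :
    oA K θ (sc r f) γ a z = r ^ 2 * oA K θ f γ a z := by
  rw [oA, cHess_sc r hf γ hz, tr2_hom, oA]

lemma bA_sc (r : ℝ) (hf : IsTst C f) (γ : Γ) {a : C.I} {z : Cm n} (hz : z ∈ C.Ω a) :
    bA K θ (sc r f) γ a z = r ^ 2 * bA K θ f γ a z := by
  rw [bA, cHess_sc r hf γ hz, tr2_hom, bA]

lemma eA_sc (r : ℝ) (hf : IsTst C f) (γ : Γ) {a : C.I} {z : Cm n} (hz : z ∈ C.Ω a) :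
    eA K θ (sc r f) γ a z = r ^ 2 * eA K θ f γ a z := by
  rw [eA, pd_sc r hf γ hz, ee_hom, eA]

lemma pA_sc (r : ℝ) (hf : IsTst C f) (γ : Γ) {a : C.I} {z : Cm n} (hz : z ∈ C.Ω a) :
    pA K θ (sc r f) γ a z = r ^ 2 * pA K θ f γ a z := by
  rw [pA, lA, cHess_sc r hf γ hz, tr1_hom, pA, lA]
  ring

lemma Int_cg (P : PU C) {G H : Γ → C.I → Cm n → ℝ} (h : ∀ γ a, ∀ z ∈ C.Ω a, G γ a z = H γ a z) :
    Int P K G = Int P K H :=
  Asm.Int_congr P K fun γ a z hz => h γ a z (Asm.V_sub_Ω C a hz)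

variable (P : PU C)

lemma en_sc (r : ℝ) (hf : IsTst C f) :
    en P K θ 0 (sc r f) (sc r f) = r ^ 2 * en P K θ 0 f f := by
  rw [en, en, ← Int_mul H913.V.v3Stmt P K (fam_vA hf hf K θ 0)]
  exact Int_cg K P fun γ a z hz => vA_sc K θ r hf γ hz

lemma ip_sc (r : ℝ) (hf : IsTst C f) :
    ip P K θ 0 (sc r f) (sc r f) = r ^ 2 * ip P K θ 0 f f := by
  rw [ip, ip, ← Int_mul H913.V.v3Stmt P K (fam_ip hf hf K θ 0)]
  refine Int_cg K P fun γ a z hz => ?_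
  simp only [sc]
  ring

lemma int_pA_sc (r : ℝ) (hf : IsTst C f) :
    Int P K (pA K θ (sc r f)) = r ^ 2 * Int P K (pA K θ f) := by
  rw [← Int_mul H913.V.v3Stmt P K (fam_pA H279.a2Stmt hf K θ)]
  exact Int_cg K P fun γ a z hz => pA_sc K θ r hf γ hz

lemma int_eA_sc (r : ℝ) (hf : IsTst C f) :
    Int P K (eA K θ (sc r f)) = r ^ 2 * Int P K (eA K θ f) := by
  rw [← Int_mul H913.V.v3Stmt P K (fam_eA H279.a2Stmt hf K θ)]
  exact Int_cg K P fun γ a z hz => eA_sc K θ r hf γ hz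

lemma int_sc (r : ℝ) (hm : Fam C m) : Int P K (sc r m) = r * Int P K m :=
  Int_mul H913.V.v3Stmt P K hm r

lemma trd_sc (c : Γ) (r : ℝ) (f : Γ → C.I → Cm n → ℝ) : trd c (sc r f) = sc r (trd c f) := by
  funext γ a z
  simp only [trd, sc]
  ring

lemma isTst_trd (c : Γ) (hf : IsTst C f) : IsTst C (trd c f) :=
  (H275.trL C c (⟨f, hf⟩ : Asm.tst C) - (⟨f, hf⟩ : Asm.tst C)).2

/-- **The normalised sequence of `APPc`.** -/
structure ASeq {ι : Type} [Fintype ι] (c : ι → Γ) where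
  f : ℕ → Γ → C.I → Cm n → ℝ
  m : ℕ → Γ → C.I → Cm n → ℝ
  s : ℕ → ℝ
  ε : ℕ → ℝ
  c₀ : ℝ
  tst : ∀ k, IsTst C (f k)
  fam : ∀ k, Fam C (m k)
  one : ∀ k, en P K θ 0 (f k) (f k) = 1
  dom : ∀ k, ∀ γ a, ∀ z ∈ C.Ω a, 0 ≤ oA K θ (f k) γ a z ∧ 0 ≤ bA K θ (f k) γ a z ∧
    oA K θ (f k) γ a z + bA K θ (f k) γ a z ≤ m k γ a z
  hs : ∀ k, 1 ≤ s k
  hε : ∀ k, 0 < ε k
  hc₀ : 0 < c₀
  ineq : ∀ k, ip P K θ 0 (f k) (f k) + s k ^ 2 * Int P K (pA K θ (f k)) +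
      (ε k)⁻¹ * (Int P K (eA K θ (f k)) + s k * Int P K (m k) +
        ∑ i, s k * en P K θ 0 (trd (c i) (f k)) (trd (c i) (f k))) ≤ c₀ * s k
  lim : Tendsto ε atTop (𝓝 0)

theorem exists_aseq (hq : 0 < q) (hF : Folner Γ) (hE : Esc P K θ) {ι : Type} [Fintype ι]
    (c : ι → Γ) (hc : ∀ i g, c i * g = g * c i) : Nonempty (ASeq K θ P c) := by
  obtain ⟨c₀, hc₀, h⟩ := appcStmt n q hq Γ C P K θ hF hE ι c hc
  choose f s m hf hs hpos hm hdom hineq using fun k : ℕ => h (1 / ((k : ℝ) + 1)) (by positivity)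
  set V : ℕ → ℝ := fun k => en P K θ 0 (f k) (f k) with hV
  set r : ℕ → ℝ := fun k => (Real.sqrt (V k))⁻¹ with hr
  have hr2 : ∀ k, r k ^ 2 = (V k)⁻¹ := fun k => by
    rw [hr]
    simp only
    rw [inv_pow, Real.sq_sqrt (hpos k).le]
  have hr0 : ∀ k, 0 < r k ^ 2 := fun k => by rw [hr2]; exact inv_pos.2 (hpos k)
  refine ⟨{ f := fun k => sc (r k) (f k)
            m := fun k => sc (r k ^ 2) (m k)
            s := s
            ε := fun k => 1 / ((k : ℝ) + 1)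
            c₀ := c₀
            tst := fun k => isTst_sc _ (hf k)
            fam := fun k => fam_sc _ (hm k)
            one := fun k => ?_
            dom := fun k γ a z hz => ?_
            hs := hs
            hε := fun k => by positivity
            hc₀ := hc₀
            ineq := fun k => ?_
            lim := tendsto_one_div_add_atTop_nhds_zero_nat }⟩
  · rw [en_sc K θ P _ (hf k), hr2]
    exact inv_mul_cancel₀ (hpos k).ne'
  · obtain ⟨h1, h2, h3⟩ := hdom k γ a z hz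
    rw [oA_sc K θ _ (hf k) γ hz, bA_sc K θ _ (hf k) γ hz]
    refine ⟨mul_nonneg (hr0 k).le h1, mul_nonneg (hr0 k).le h2, ?_⟩
    rw [← mul_add]
    exact mul_le_mul_of_nonneg_left h3 (hr0 k).le
  · have e1 : ∀ i, en P K θ 0 (trd (c i) (sc (r k) (f k))) (trd (c i) (sc (r k) (f k))) =
        r k ^ 2 * en P K θ 0 (trd (c i) (f k)) (trd (c i) (f k)) := by
      intro i
      rw [trd_sc]
      exact en_sc K θ P _ (isTst_trd (c i) (hf k))
    simp only [e1]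
    rw [ip_sc K θ P _ (hf k), int_pA_sc K θ P _ (hf k), int_eA_sc K θ P _ (hf k),
      int_sc K P _ (hm k)]
    have h2 := mul_le_mul_of_nonneg_left (hineq k) (hr0 k).le
    have e2 : r k ^ 2 * (c₀ * (s k * en P K θ 0 (f k) (f k))) = c₀ * s k := by
      rw [hr2]
      have := (hpos k).ne'
      show (V k)⁻¹ * (c₀ * (s k * V k)) = c₀ * s k
      have hV0 : V k ≠ 0 := this
      field_simp
    rw [e2] at h2
    refine le_trans (le_of_eq ?_) h2
    have e3 : ∑ i, s k * (r k ^ 2 * en P K θ 0 (trd (c i) (f k)) (trd (c i) (f k))) =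
        r k ^ 2 * ∑ i, s k * en P K θ 0 (trd (c i) (f k)) (trd (c i) (f k)) := by
      rw [Finset.mul_sum]
      refine Finset.sum_congr rfl fun i _ => ?_
      ring
    rw [e3]
    ring

variable {K θ P} {ι : Type} [Fintype ι] {c : ι → Γ}

lemma ASeq.ip_nn (A : ASeq K θ P c) (k : ℕ) : 0 ≤ ip P K θ 0 (A.f k) (A.f k) :=
  ip_nonneg H279.a2Stmt H913.V.v3Stmt le_rfl (A.tst k)

lemma ASeq.pA_nn (A : ASeq K θ P c) (k : ℕ) : 0 ≤ Int P K (pA K θ (A.f k)) :=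
  Asm.Int_nonneg H913.V.v3Stmt P K (fam_pA H279.a2Stmt (A.tst k) K θ) fun _ a _ hz =>
    div_nonneg (sq_nonneg _) (dD_nonneg H279.a2Stmt K θ le_rfl (Asm.V_sub_Ω C a hz))

lemma ASeq.eA_nn (A : ASeq K θ P c) (k : ℕ) : 0 ≤ Int P K (eA K θ (A.f k)) :=
  int_eA_nonneg H279.a2Stmt H913.V.v3Stmt (A.tst k)

lemma ASeq.m_nn (A : ASeq K θ P c) (k : ℕ) : 0 ≤ Int P K (A.m k) :=
  Asm.Int_nonneg H913.V.v3Stmt P K (A.fam k) fun γ a z hz => by
    have := A.dom k γ a z (Asm.V_sub_Ω C a hz)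
    linarith [this.1, this.2.1, this.2.2]

lemma ASeq.tr_nn (A : ASeq K θ P c) (k : ℕ) (i : ι) :
    0 ≤ en P K θ 0 (trd (c i) (A.f k)) (trd (c i) (A.f k)) :=
  en_nonneg H279.a2Stmt H913.V.v3Stmt le_rfl (isTst_trd (c i) (A.tst k))

lemma ASeq.key (A : ASeq K θ P c) (k : ℕ) :
    A.s k * Int P K (A.m k) ≤ A.ε k * (A.c₀ * A.s k) ∧
    ∀ i, A.s k * en P K θ 0 (trd (c i) (A.f k)) (trd (c i) (A.f k)) ≤ A.ε k * (A.c₀ * A.s k) := by
  have hs0 : 0 ≤ A.s k := zero_le_one.trans (A.hs k)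
  have h1 := A.ineq k
  have h2 : (0 : ℝ) ≤ A.s k ^ 2 * Int P K (pA K θ (A.f k)) := mul_nonneg (sq_nonneg _) (A.pA_nn k)
  have h3 := A.ip_nn k
  have h4 : (A.ε k)⁻¹ * (Int P K (eA K θ (A.f k)) + A.s k * Int P K (A.m k) +
        ∑ i, A.s k * en P K θ 0 (trd (c i) (A.f k)) (trd (c i) (A.f k))) ≤ A.c₀ * A.s k := by
    linarith
  rw [inv_mul_le_iff₀ (A.hε k)] at h4
  have h5 : ∀ i, 0 ≤ A.s k * en P K θ 0 (trd (c i) (A.f k)) (trd (c i) (A.f k)) := fun i =>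
    mul_nonneg hs0 (A.tr_nn k i)
  have h6 := Finset.sum_nonneg fun i (_ : i ∈ Finset.univ) => h5 i
  have h7 := mul_nonneg hs0 (A.m_nn k)
  have h8 := A.eA_nn k
  refine ⟨by linarith, fun i => ?_⟩
  have h9 := Finset.single_le_sum (f := fun i => A.s k *
    en P K θ 0 (trd (c i) (A.f k)) (trd (c i) (A.f k))) (fun i _ => h5 i) (Finset.mem_univ i)
  linarith

lemma ASeq.m_le (A : ASeq K θ P c) (k : ℕ) : Int P K (A.m k) ≤ A.c₀ * A.ε k := by
  have hs0 : 0 < A.s k := zero_lt_one.trans_le (A.hs k)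
  have h := (A.key k).1
  have e : A.ε k * (A.c₀ * A.s k) = A.s k * (A.c₀ * A.ε k) := by ring
  rw [e] at h
  exact le_of_mul_le_mul_left h hs0

lemma ASeq.tr_le (A : ASeq K θ P c) (k : ℕ) (i : ι) :
    en P K θ 0 (trd (c i) (A.f k)) (trd (c i) (A.f k)) ≤ A.c₀ * A.ε k := by
  have hs0 : 0 < A.s k := zero_lt_one.trans_le (A.hs k)
  have h := (A.key k).2 i
  have e : A.ε k * (A.c₀ * A.s k) = A.s k * (A.c₀ * A.ε k) := by ring
  rw [e] at h
  exact le_of_mul_le_mul_left h hs0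

lemma ASeq.oA_le (A : ASeq K θ P c) (k : ℕ) : Int P K (oA K θ (A.f k)) ≤ A.c₀ * A.ε k := by
  refine le_trans ?_ (A.m_le k)
  refine H913.V.v3Stmt.mono C P K _ _ (fam_oA (A.tst k) K θ) (A.fam k) fun γ a z hz => ?_
  have := A.dom k γ a z (Asm.V_sub_Ω C a hz)
  linarith [this.1, this.2.1, this.2.2]

/-- the sequence has asymptotically flat energy -/
theorem ASeq.flatSeq (A : ASeq K θ P c) {F : Γ → C.I → Cm n → Cm q} (hF : H650.HolF C F)
    (hθ : ∀ γ a, ∀ z ∈ C.Ω a, θ.th a z = (H66.S7.JF (F γ a) z)ᵀ) (hq : q < n)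
    {U : Filter ℕ} (hU : U ≤ atTop) : H15.FL.FlatSeq P K θ F U A.f :=
  H15.FL.flatSeq_of_app hF hθ hq A.tst A.fam (fun k => by rw [A.one]; exact one_pos) A.dom A.hs A.hε
    (r := fun k => ∑ i, A.s k * en P K θ 0 (trd (c i) (A.f k)) (trd (c i) (A.f k)))
    (fun k => Finset.sum_nonneg fun i _ => mul_nonneg (zero_le_one.trans (A.hs k)) (A.tr_nn k i))
    (c₀ := A.c₀) (fun k => by rw [A.one, mul_one]; exact A.ineq k) (A.lim.mono_left hU)

end glob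

end Vale.Agent.P284.H402.B
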