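import Vale.Agent.P284.H402.B.TF4

/-!
# P284 (helper402): the limit is invariant under the central elements
-/

open scoped Manifold ContDiff Topology Pointwise ComplexConjugate ComplexOrder Matrix
open Filter Set Metric MeasureTheory

noncomputable section

namespace Vale.Agent.P284.H402.B

open Vale.Agent.P272.K Vale.Agent.P272.K.C2 Vale.Agent.P284.H248 Vale.Agent.P284.H894
  Vale.Agent.P284.H894.G Vale.Agent.P284.H894.V Vale.Agent.P284.H402.A Vale.Agent.P284.H639.V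
  Vale.Agent.P284.H366

section
variable {n : ℕ} {H : ℕ → Type} [∀ k, NormedAddCommGroup (H k)] [∀ k, InnerProductSpace ℂ (H k)]
  {U : Ultrafilter ℕ}

lemma appr_zero {z₀ : Cm n} {v φ : ∀ k, Cm n → H k} (h : Appr U z₀ v φ) {r : ℝ} (hr : 0 < r)
    (hi : ∀ k, IntegrableOn (fun z => ‖φ k z‖ ^ 2) (ball z₀ r))
    (hl : Tendsto (fun k => ∫ z in ball z₀ r, ‖φ k z‖ ^ 2) U (𝓝 0)) :
    Tendsto (fun k => ‖v k z₀‖) U (𝓝 0) := by
  obtain ⟨ρ, B, h⟩ := h
  have hρ := h.pos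
  set σ := min ρ r / 2 with hσ
  have hσ0 : 0 < σ := by
    have := lt_min hρ hr
    rw [hσ]
    linarith
  have hσρ : σ < ρ := by
    have := min_le_left ρ r
    have := lt_min hρ hr
    rw [hσ]
    linarith
  have hσr : σ ≤ r := by
    have := min_le_right ρ r
    have := lt_min hρ hr
    rw [hσ]
    linarith
  have s1 : ball z₀ σ ⊆ ball z₀ ρ := ball_subset_ball hσρ.le
  have s2 : ball z₀ σ ⊆ ball z₀ r := ball_subset_ball hσr
  have s3 : closedBall z₀ σ ⊆ ball z₀ ρ := closedBall_subset_ball hσρ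
  have i0 : ∀ k, IntegrableOn (fun z => ‖v k z‖ ^ 2) (ball z₀ σ) := fun k =>
    intOn (((h.contv k).mono s3).norm.pow 2)
  refine uniq (C := B) hσ0 (fun k z hz => h.lip k z (s1 hz) z₀ (mem_ball_self hρ)) i0 ?_
  have h1 : Tendsto (fun k => 2 * (∫ z in ball z₀ ρ, ‖v k z - φ k z‖ ^ 2) +
      2 * ∫ z in ball z₀ r, ‖φ k z‖ ^ 2) U (𝓝 0) := by
    simpa using (h.lim.const_mul 2).add (hl.const_mul 2)
  refine squeeze_zero (fun k => integral_nonneg fun z => sq_nonneg _) (fun k => ?_) h1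
  have e1 : ∫ z in ball z₀ σ, ‖v k z‖ ^ 2 ≤
      ∫ z in ball z₀ σ, (2 * ‖v k z - φ k z‖ ^ 2 + 2 * ‖φ k z‖ ^ 2) := by
    refine setIntegral_mono_on (i0 k) ((((h.int k).mono_set s1).const_mul 2).add
      (((hi k).mono_set s2).const_mul 2)) measurableSet_ball fun z _ => ?_
    have h2 : ‖v k z‖ ≤ ‖v k z - φ k z‖ + ‖φ k z‖ := by
      have := norm_add_le (v k z - φ k z) (φ k z)
      rwa [sub_add_cancel] at this
    have h3 : ‖v k z‖ ^ 2 ≤ (‖v k z - φ k z‖ + ‖φ k z‖) ^ 2 :=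
      pow_le_pow_left₀ (norm_nonneg _) h2 2
    nlinarith [sq_nonneg (‖v k z - φ k z‖ - ‖φ k z‖)]
  rw [integral_add (((h.int k).mono_set s1).const_mul 2) (((hi k).mono_set s2).const_mul 2),
    integral_const_mul, integral_const_mul] at e1
  refine e1.trans (add_le_add (mul_le_mul_of_nonneg_left ?_ (by norm_num))
    (mul_le_mul_of_nonneg_left ?_ (by norm_num)))
  · exact setIntegral_mono_set (h.int k) (Eventually.of_forall fun z => sq_nonneg _) s1.eventuallyLE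
  · exact setIntegral_mono_set (hi k) (Eventually.of_forall fun z => sq_nonneg _) s2.eventuallyLE

end

section glob
variable {n q : ℕ} {Γ : Type} [Group Γ] {C : Coc n Γ} {f : Γ → C.I → Cm n → ℝ}

lemma wd_sm_sub {n q : ℕ} (M : Matrix (Fin n) (Fin q) ℂ) (α β : Fin n → ℂ)
    (ξ : Fin (q + 1) → Cm n) : wd (sm M (α - β)) ξ = wd (sm M α) ξ - wd (sm M β) ξ := by
  rw [wd_apply, wd_apply, wd_apply]
  have e : ∀ δ : Fin n → ℂ, vm (sm M δ) ξ =
      (vm (sm M 0) ξ).updateCol (Fin.last q) fun i => ∑ l, ξ i l * δ l := by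
    intro δ
    ext i j
    refine Fin.lastCases ?_ (fun j => ?_) j
    · rw [Matrix.updateCol_self]
      simp only [vm, Matrix.of_apply, sm_last]
    · rw [Matrix.updateCol_ne (Fin.castSucc_lt_last j).ne]
      simp only [vm, Matrix.of_apply, sm_cast]
  rw [e (α - β), e α, e β]
  have e2 : (fun i => ∑ l, ξ i l * (α - β) l) =
      (fun i => ∑ l, ξ i l * α l) + (-1 : ℂ) • fun i => ∑ l, ξ i l * β l := by
    funext i
    simp only [Pi.sub_apply, Pi.add_apply, Pi.smul_apply, smul_eq_mul, mul_sub,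
      Finset.sum_sub_distrib]
    ring
  rw [e2, Matrix.det_updateCol_add, Matrix.det_updateCol_smul]
  ring

/-- the values of the form of `trd c f` -/
lemma s_trd (θ : HF C q) (hf : IsTst C f) (c : Γ) (γ : Γ) {a : C.I} {z : Cm n} (hz : z ∈ C.Ω a)
    (ξ : Fin (q + 1) → Cm n) : (tf θ (isTst_trd c hf)).s γ a z ξ =
      (tf θ hf).s (c⁻¹ * γ) a z ξ - (tf θ hf).s γ a z ξ := by
  show wd (sm (θ.th a z) (pd (trd c f γ a) z)) ξ = wd (sm (θ.th a z) (pd (f (c⁻¹ * γ) a) z)) ξ -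
    wd (sm (θ.th a z) (pd (f γ a) z)) ξ
  rw [← wd_sm_sub]
  congr 3
  funext j
  have h1 := (hf.smooth (c⁻¹ * γ) a z hz).differentiableAt (by norm_num)
  have h2 := (hf.smooth γ a z hz).differentiableAt (by norm_num)
  show dz j (fun y => ((f (c⁻¹ * γ) a y - f γ a y : ℝ) : ℂ)) z = _
  have e : (fun y => ((f (c⁻¹ * γ) a y - f γ a y : ℝ) : ℂ)) =
      fun y => ((f (c⁻¹ * γ) a y + (-1) * f γ a y : ℝ) : ℂ) := by
    funext y
    congr 1
    ring
  rw [e]
  have h3 := congrFun (pd_add (f := f (c⁻¹ * γ) a) (g := fun y => (-1) * f γ a y) h1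
    (h2.const_mul _)) j
  have h4 := congrFun (pd_smul (f := f γ a) (-1) h2) j
  simp only [pd, Pi.add_apply, Pi.smul_apply, smul_eq_mul, Pi.sub_apply] at h3 h4 ⊢
  rw [h3, h4]
  push_cast
  ring

lemma Φ_trd (θ : HF C q) (hf : IsTst C f) {c : Γ} (hc : ∀ g, c * g = g * c) (γ : Γ) :
    ∃ T : Finset Γ, ∀ a, ∀ z ∈ C.V a, ∀ ξ : Fin (q + 1) → Cm n,
      ‖(tf θ hf).Φ (c⁻¹ * γ) a z ξ - (tf θ hf).Φ γ a z ξ‖ ^ 2 =
        ∑ g ∈ T, ‖(tf θ (isTst_trd c hf)).s g a z ξ‖ ^ 2 := by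
  classical
  set F := tf θ hf with hF
  set T : Finset Γ := F.S ∪ F.S.image (fun g => c * g) with hT
  have hci : ∀ g, c⁻¹ * g = g * c⁻¹ := fun g => by
    have := hc (g * c⁻¹)
    have h2 : c * (g * c⁻¹) = g := by rw [this]; group
    calc c⁻¹ * g = c⁻¹ * (c * (g * c⁻¹)) := by rw [h2]
      _ = g * c⁻¹ := by group
  refine ⟨T, fun a z hz ξ => ?_⟩
  have hz' : z ∈ C.Ω a := H366.V_sub_Ω C a hz
  have o1 : ∀ g ∉ F.S, F.s g a z ξ = 0 := fun g hg => by rw [F.out g hg a z hz]; rfl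
  have e1 : F.Φ γ a z ξ = vec T γ fun g => F.s g a z ξ := by
    rw [F.Φ_apply]
    exact vec_mono γ Finset.subset_union_left o1
  have e2 : F.Φ (c⁻¹ * γ) a z ξ = vec T γ fun g => F.s (c⁻¹ * g) a z ξ := by
    rw [F.Φ_apply, vec_mono (c⁻¹ * γ) (Finset.subset_union_left : F.S ⊆ T) o1, hci γ]
    symm
    refine vec_shift T γ c⁻¹ (fun g hg => ?_) (fun g hg => ?_) fun g => ?_
    · refine o1 _ fun hg' => hg ?_
      rw [hT, Finset.mem_union]
      right
      rw [Finset.mem_image]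
      exact ⟨c⁻¹ * g, hg', by group⟩
    · exact o1 _ fun hg' => hg (Finset.mem_union_left _ hg')
    · rw [hci g]
  have e3 : F.Φ (c⁻¹ * γ) a z ξ - F.Φ γ a z ξ =
      vec T γ fun g => (tf θ (isTst_trd c hf)).s g a z ξ := by
    rw [e1, e2, sub_eq_add_neg, ← neg_one_smul ℂ, ← vec_smul, ← vec_add]
    refine vec_congr T γ fun g _ => ?_
    rw [s_trd θ hf c g hz' ξ]
    ring
  rw [e3, norm_vec]

variable {K : KM C} {θ : HF C q} {P : PU C}

/-- **the limit is invariant under the central elements which almost fix the sequence** -/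
theorem lim_central (P : PU C) (K : KM C) (D : MD C) {U : Ultrafilter ℕ}
    {f : ℕ → Γ → C.I → Cm n → ℝ}
    (hf : ∀ k, IsTst C (f k)) (hT : TSeq U fun k => tf θ (hf k)) {c : Γ} (hc : ∀ g, c * g = g * c)
    (h0 : Tendsto (fun k => en P K θ 0 (trd c (f k)) (trd c (f k))) U (𝓝 0)) (γ : Γ) {a : C.I}
    {z : Cm n} (hz : z ∈ D.Q a) :
    LimS D U (fun k => tf θ (hf k)) (c⁻¹ * γ) a z = LimS D U (fun k => tf θ (hf k)) γ a z := by
  ext ξ
  rw [LimS_apply D hT _ a hz, LimS_apply D hT _ a hz, slim, slim,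
    mk_eq_iff (slim_bd (hT.fseq D (c⁻¹ * γ) a) D.mol D.pos.le le_rfl hz ξ)
      (slim_bd (hT.fseq D γ a) D.mol D.pos.le le_rfl hz ξ)]
  have h1 := (hT.fseq D (c⁻¹ * γ) a ξ).appr D.mol D.pos.le le_rfl hz
  have h2 := (hT.fseq D γ a ξ).appr D.mol D.pos.le le_rfl hz
  have hV : D.Q a ⊆ C.V a := D.Q_sub a
  obtain ⟨r, hr, hb⟩ := Metric.isOpen_iff.1 (D.Q_open a) z hz
  obtain ⟨B, hB0, hB⟩ := tf_L2 P K θ ξ
  choose T hTT using fun k => Φ_trd θ (hf k) hc γ
  have i1 : ∀ k, ∀ g, IntegrableOn (fun y => ‖(tf θ (isTst_trd c (hf k))).s g a y ξ‖ ^ 2)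
      (C.V a) := fun k g => (tf θ (isTst_trd c (hf k))).int1 g a ξ
  have i2 : ∀ k, IntegrableOn (fun y => ∑ g ∈ T k,
      ‖(tf θ (isTst_trd c (hf k))).s g a y ξ‖ ^ 2) (C.V a) := fun k =>
    integrable_finsetSum (T k) fun g _ => i1 k g
  have hbV : ball z r ⊆ C.V a := hb.trans hV
  refine appr_zero (h1.sub h2) hr (fun k => ?_) ?_
  · exact ((i2 k).mono_set hbV).congr_fun (fun y hy => (hTT k a y (hbV hy) ξ).symm)
      measurableSet_ball
  · have h3 : Tendsto (fun k => B * en P K θ 0 (trd c (f k)) (trd c (f k))) U (𝓝 0) := by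
      simpa using h0.const_mul B
    refine squeeze_zero (fun k => integral_nonneg fun z => sq_nonneg _) (fun k => ?_) h3
    refine le_trans ?_ (hB _ (isTst_trd c (hf k)) (T k) a)
    rw [← integral_finsetSum _ fun g _ => i1 k g]
    rw [setIntegral_congr_fun (g := fun y => ∑ g ∈ T k,
      ‖(tf θ (isTst_trd c (hf k))).s g a y ξ‖ ^ 2) measurableSet_ball fun y hy =>
        hTT k a y (hbV hy) ξ]
    exact setIntegral_mono_set (i2 k)
      (Eventually.of_forall fun y => Finset.sum_nonneg fun g _ => sq_nonneg _) hbV.eventuallyLE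

variable {ι : Type} [Fintype ι] {c : ι → Γ}

theorem ASeq.central (A : ASeq K θ P c) {U : Ultrafilter ℕ} (hU : (U : Filter ℕ) ≤ atTop)
    (D : MD C) (i : ι) (hc : ∀ g, c i * g = g * c i) (γ : Γ) {a : C.I} {z : Cm n}
    (hz : z ∈ D.Q a) : LimS D U (fun k => tf θ (A.tst k)) (c i * γ) a z =
      LimS D U (fun k => tf θ (A.tst k)) γ a z := by
  have h1 : Tendsto (fun k => A.c₀ * A.ε k) U (𝓝 0) := by
    simpa using (A.lim.mono_left hU).const_mul A.c₀
  have h0 : Tendsto (fun k => en P K θ 0 (trd (c i) (A.f k)) (trd (c i) (A.f k))) U (𝓝 0) :=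
    squeeze_zero (fun k => A.tr_nn k i) (fun k => A.tr_le k i) h1
  have h2 := lim_central P K D A.tst (A.tseq hU) hc h0 (c i * γ) hz
  rw [inv_mul_cancel_left] at h2
  exact h2.symm

end glob

end Vale.Agent.P284.H402.B
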