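import Vale.Agent.P284.H402.A.APP
import Vale.Agent.P284.H366.LS2
import Vale.Agent.P272.Sz.Det

/-!
# P284 (helper402): the determinant inequality `|det (Ξ M)|² ≤ det (Ξ w Ξᴴ) det (Mᴴ w⁻¹ M)`
-/

open scoped ComplexOrder Matrix ComplexConjugate
open Matrix

noncomputable section

namespace Vale.Agent.P284.H402.B

theorem det_mono_re {α : Type*} [Fintype α] [DecidableEq α] {A B : Matrix α α ℂ}
    (hA : A.PosSemidef) (hAB : (B - A).PosSemidef) : A.det.re ≤ B.det.re := by
  by_cases h : IsUnit A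
  · exact (Complex.le_def.1 (Vale.Agent.P272.Sz.det_le_det ((hA.posDef_iff_isUnit).2 h) hAB)).1
  · have h1 : A.det = 0 := by
      by_contra h2
      exact h ((Matrix.isUnit_iff_isUnit_det _).2 (isUnit_iff_ne_zero.2 h2))
    have h2 : B.PosSemidef := by
      have h3 := hA.add hAB
      rwa [add_sub_cancel] at h3
    rw [h1]
    exact (Complex.le_def.1 h2.det_nonneg).1

/-- Cauchy-Schwarz for `p`-vectors and `p`-forms -/
theorem det_cs {n p : ℕ} {w : Matrix (Fin n) (Fin n) ℂ} (hw : w.PosDef)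
    (Ξ : Matrix (Fin p) (Fin n) ℂ) (M : Matrix (Fin n) (Fin p) ℂ) :
    ‖(Ξ * M).det‖ ^ 2 ≤ (Ξ * w * Ξᴴ).det.re * (Mᴴ * w⁻¹ * M).det.re := by
  have hu : IsUnit w.det := isUnit_iff_ne_zero.2 hw.det_pos.ne'
  have hwi : w⁻¹.PosDef := hw.inv
  set A := Ξ * w * Ξᴴ with hA
  set C := Mᴴ * w⁻¹ * M with hC
  have hAp : A.PosSemidef := hw.posSemidef.mul_mul_conjTranspose_same Ξ
  have hCp : C.PosSemidef := hwi.posSemidef.conjTranspose_mul_mul_same M
  by_cases h0 : C.det = 0
  · obtain ⟨v, hv0, hv⟩ := Matrix.exists_mulVec_eq_zero_iff.2 h0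
    have h1 : M *ᵥ v = 0 := by
      by_contra hne
      have h2 := hwi.dotProduct_mulVec_pos hne
      have h3 : star (M *ᵥ v) ⬝ᵥ w⁻¹ *ᵥ (M *ᵥ v) = star v ⬝ᵥ C *ᵥ v := by
        rw [hC, ← Matrix.mulVec_mulVec, ← Matrix.mulVec_mulVec, Matrix.star_mulVec,
          ← Matrix.dotProduct_mulVec]
      rw [h3, hv, dotProduct_zero] at h2
      exact lt_irrefl _ h2
    have h2 : (Ξ * M).det = 0 := by
      refine Matrix.exists_mulVec_eq_zero_iff.1 ⟨v, hv0, ?_⟩
      rw [← Matrix.mulVec_mulVec, h1, Matrix.mulVec_zero]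
    rw [h2, h0]
    simp
  · have hCd : C.PosDef := (hCp.posDef_iff_isUnit).2
      ((Matrix.isUnit_iff_isUnit_det _).2 (isUnit_iff_ne_zero.2 h0))
    have : Invertible C := hCd.isUnit.invertible
    have hB : (fromBlocks A (Ξ * M) (Ξ * M)ᴴ C).PosSemidef := by
      have h1 : fromBlocks A (Ξ * M) (Ξ * M)ᴴ C =
          (fromCols (w * Ξᴴ) M)ᴴ * w⁻¹ * fromCols (w * Ξᴴ) M := by
        rw [Matrix.conjTranspose_fromCols_eq_fromRows_conjTranspose, Matrix.fromRows_mul,
          Matrix.fromRows_mul_fromCols]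
        have hwh : wᴴ = w := hw.isHermitian
        congr 1
        · rw [Matrix.conjTranspose_mul, Matrix.conjTranspose_conjTranspose, hwh,
            Matrix.mul_assoc Ξ w w⁻¹, Matrix.mul_nonsing_inv _ hu, Matrix.mul_one,
            ← Matrix.mul_assoc]
        · rw [Matrix.conjTranspose_mul, Matrix.conjTranspose_conjTranspose, hwh,
            Matrix.mul_assoc Ξ w w⁻¹, Matrix.mul_nonsing_inv _ hu, Matrix.mul_one]
        · rw [Matrix.conjTranspose_mul, Matrix.mul_assoc, ← Matrix.mul_assoc w⁻¹,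
            Matrix.nonsing_inv_mul _ hu, Matrix.one_mul]
      rw [h1]
      exact hwi.posSemidef.conjTranspose_mul_mul_same _
    have h2 := (PosDef.fromBlocks₂₂ A (Ξ * M) hCd).1 hB
    have h3 : ((Ξ * M) * C⁻¹ * (Ξ * M)ᴴ).PosSemidef :=
      hCd.inv.posSemidef.mul_mul_conjTranspose_same _
    have h4 := det_mono_re h3 h2
    have hCr : C.det = (C.det.re : ℂ) := by
      have := (Complex.le_def.1 hCp.det_nonneg).2
      apply Complex.ext
      · simp
      · simpa using this.symm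
    have hCpos : 0 < C.det.re := (Complex.lt_def.1 hCd.det_pos).1
    have h5 : ((Ξ * M) * C⁻¹ * (Ξ * M)ᴴ).det.re = ‖(Ξ * M).det‖ ^ 2 / C.det.re := by
      rw [Matrix.det_mul, Matrix.det_mul, Matrix.det_nonsing_inv, Matrix.det_conjTranspose,
        Ring.inverse_eq_inv', hCr]
      have : (Ξ * M).det * ((C.det.re : ℂ))⁻¹ * star (Ξ * M).det =
          ((‖(Ξ * M).det‖ ^ 2 / C.det.re : ℝ) : ℂ) := by
        rw [mul_right_comm, RCLike.star_def, Complex.mul_conj, Complex.normSq_eq_norm_sq]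
        push_cast
        rw [div_eq_mul_inv]
      rw [this, Complex.ofReal_re, Complex.ofReal_re]
    rw [h5, div_le_iff₀ hCpos] at h4
    exact h4

end Vale.Agent.P284.H402.B
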