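import Vale.Agent.P284.H402.B.Cs

/-!
# P284 (helper402): the test forms `θ_1 ∧ … ∧ θ_q ∧ ∂f`
-/

open scoped Manifold ContDiff Topology Pointwise ComplexConjugate ComplexOrder Matrix
open Filter Set Metric MeasureTheory

noncomputable section

namespace Vale.Agent.P284.H402.B

open Vale.Agent.P272.K Vale.Agent.P284.H248 Vale.Agent.P284.H894 Vale.Agent.P284.H894.G
  Vale.Agent.P284.H894.V Vale.Agent.P284.H402.A Vale.Agent.P284.H366 Vale.Agent.P284.H639.V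

/-! ### Pointwise -/

section
variable {n q : ℕ}

/-- the matrix with the columns `M` and `α` -/
def sm (M : Matrix (Fin n) (Fin q) ℂ) (α : Fin n → ℂ) : Matrix (Fin n) (Fin (q + 1)) ℂ :=
  Matrix.of fun i => Fin.snoc (M i) (α i)

@[simp] lemma sm_cast (M : Matrix (Fin n) (Fin q) ℂ) (α : Fin n → ℂ) (i : Fin n) (j : Fin q) :
    sm M α i j.castSucc = M i j := by
  simp [sm]

@[simp] lemma sm_last (M : Matrix (Fin n) (Fin q) ℂ) (α : Fin n → ℂ) (i : Fin n) :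
    sm M α i (Fin.last q) = α i := by
  simp [sm]

lemma sm_mul (J : Matrix (Fin n) (Fin n) ℂ) (M : Matrix (Fin n) (Fin q) ℂ) (α : Fin n → ℂ) :
    J * sm M α = sm (J * M) (J *ᵥ α) := by
  ext i j
  refine Fin.lastCases ?_ (fun j => ?_) j
  · rw [sm_last, Matrix.mul_apply]
    simp only [sm_last]
    rfl
  · rw [sm_cast, Matrix.mul_apply, Matrix.mul_apply]
    simp only [sm_cast]

lemma sm_update_last (M : Matrix (Fin n) (Fin q) ℂ) (α β : Fin n → ℂ) :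
    (sm M α).updateCol (Fin.last q) β = sm M β := by
  ext i j
  refine Fin.lastCases ?_ (fun j => ?_) j
  · rw [sm_last, Matrix.updateCol_self]
  · rw [sm_cast, Matrix.updateCol_ne (Fin.castSucc_lt_last j).ne, sm_cast]

lemma vm_eq {p s : ℕ} (A : Matrix (Fin n) (Fin p) ℂ) (ξ : Fin s → Cm n) :
    vm A ξ = (Matrix.of ξ : Matrix (Fin s) (Fin n) ℂ) * A := rfl

lemma wd_comp {p : ℕ} (J : Matrix (Fin n) (Fin n) ℂ) (A : Matrix (Fin n) (Fin p) ℂ)
    (ξ : Fin p → Cm n) : wd (Jᵀ * A) ξ = wd A fun i => J *ᵥ ξ i := by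
  rw [wd_apply, wd_apply]
  congr 1
  ext i j
  show ∑ l, ξ i l * (∑ m, Jᵀ l m * A m j) = ∑ m, (∑ l, J m l * ξ i l) * A m j
  simp only [Finset.mul_sum, Finset.sum_mul, Matrix.transpose_apply]
  rw [Finset.sum_comm]
  refine Finset.sum_congr rfl fun m _ => Finset.sum_congr rfl fun l _ => ?_
  ring

lemma wd_sm_zero (M : Matrix (Fin n) (Fin q) ℂ) : wd (sm M 0) = 0 := by
  ext ξ
  rw [wd_apply]
  refine Matrix.det_eq_zero_of_column_eq_zero (Fin.last q) fun i => ?_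
  simp [vm]

lemma wd_col_zero {p : ℕ} {A : Matrix (Fin n) (Fin p) ℂ} (r : Fin p) (ξ : Fin p → Cm n) :
    wd (A.updateCol r fun _ => 0) ξ = 0 := by
  rw [wd_apply]
  refine Matrix.det_eq_zero_of_column_eq_zero r fun i => ?_
  simp [vm]

/-- the volume of the frame `ξ` -/
def bX {p : ℕ} (w : Matrix (Fin n) (Fin n) ℂ) (ξ : Fin p → Cm n) : ℝ :=
  ((Matrix.of ξ : Matrix (Fin p) (Fin n) ℂ) * w * (Matrix.of ξ : Matrix (Fin p) (Fin n) ℂ)ᴴ).det.re

lemma bX_nonneg {p : ℕ} {w : Matrix (Fin n) (Fin n) ℂ} (hw : w.PosDef) (ξ : Fin p → Cm n) :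
    0 ≤ bX w ξ :=
  (Complex.le_def.1 (hw.posSemidef.mul_mul_conjTranspose_same _).det_nonneg).1

lemma qf_bord {w : Matrix (Fin n) (Fin n) ℂ} (hw : w.PosDef) (M : Matrix (Fin n) (Fin q) ℂ)
    (α : Fin n → ℂ) : qf (AA w M 0) α α = ((sm M α)ᴴ * w⁻¹ * sm M α).det.re := by
  rw [qf, H279.a2Stmt.bord w M hw]
  rfl

/-- **pointwise bound of the values** -/
lemma wd_le {w : Matrix (Fin n) (Fin n) ℂ} (hw : w.PosDef) (M : Matrix (Fin n) (Fin q) ℂ)
    (α : Fin n → ℂ) (ξ : Fin (q + 1) → Cm n) :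
    ‖wd (sm M α) ξ‖ ^ 2 ≤ bX w ξ * qf (AA w M 0) α α := by
  rw [wd_apply, vm_eq, qf_bord hw]
  exact det_cs hw _ _

lemma inv_sub {w : Matrix (Fin n) (Fin n) ℂ} (hw : w.PosDef) {Λ : ℝ}
    (hΛ : ((Λ : ℂ) • (1 : Matrix (Fin n) (Fin n) ℂ) - w).PosSemidef) :
    ((Λ : ℂ) • w⁻¹ - 1).PosSemidef := by
  have hu : IsUnit w.det := isUnit_iff_ne_zero.2 hw.det_pos.ne'
  obtain ⟨R, hR, hRR⟩ : ∃ R : Matrix (Fin n) (Fin n) ℂ, R.IsHermitian ∧ R * R = w := by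
    open scoped MatrixOrder in
    exact ⟨CFC.sqrt w, (Matrix.nonneg_iff_posSemidef.1 (CFC.sqrt_nonneg w)).isHermitian,
      CFC.sqrt_mul_sqrt_self w hw.posSemidef.nonneg⟩
  have hwi : (w⁻¹)ᴴ = w⁻¹ := hw.inv.isHermitian
  have e1 : ((Λ : ℂ) • w⁻¹ - 1) =
      (R * w⁻¹)ᴴ * ((Λ : ℂ) • (1 : Matrix (Fin n) (Fin n) ℂ) - w) * (R * w⁻¹) := by
    rw [Matrix.conjTranspose_mul, hwi, hR.eq, Matrix.mul_sub, Matrix.sub_mul, Matrix.mul_smul,
      Matrix.smul_mul, Matrix.mul_one]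
    congr 1
    · rw [← Matrix.mul_assoc, Matrix.mul_assoc w⁻¹, hRR, Matrix.nonsing_inv_mul _ hu, Matrix.one_mul]
    · have : R * w * R = w * w := by rw [← hRR]; simp only [Matrix.mul_assoc]
      calc (1 : Matrix (Fin n) (Fin n) ℂ) = (w⁻¹ * w) * (w * w⁻¹) := by
            rw [Matrix.nonsing_inv_mul _ hu, Matrix.mul_nonsing_inv _ hu, Matrix.one_mul]
        _ = w⁻¹ * (w * w) * w⁻¹ := by simp only [Matrix.mul_assoc]
        _ = w⁻¹ * (R * w * R) * w⁻¹ := by rw [this]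
        _ = _ := by simp only [Matrix.mul_assoc]
  rw [e1]
  exact hΛ.conjTranspose_mul_mul_same _

/-- trace form of the density `oA` -/
lemma sum_qf_le {w : Matrix (Fin n) (Fin n) ℂ} (hw : w.PosDef) {Λ : ℝ}
    (hΛ : ((Λ : ℂ) • (1 : Matrix (Fin n) (Fin n) ℂ) - w).PosSemidef) {A : Matrix (Fin n) (Fin n) ℂ}
    (hA : A.PosSemidef) {x : Matrix (Fin n) (Fin n) ℂ} (hx : x.IsHermitian) :
    ∑ j, qf A (fun l => x l j) (fun l => x l j) ≤ Λ * tr2 A w⁻¹ x := by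
  have hu : IsUnit w.det := isUnit_iff_ne_zero.2 hw.det_pos.ne'
  have h1 : ∑ j, qf A (fun l => x l j) (fun l => x l j) = (xᴴ * A * x).trace.re := by
    rw [Matrix.trace, Complex.re_sum]
    refine Finset.sum_congr rfl fun j _ => ?_
    rw [Matrix.diag_apply, Matrix.mul_assoc, Matrix.mul_apply]
    rfl
  have h2 := inv_sub hw hΛ
  have h3 := tr2_nonneg hA h2 hx
  have h4 : tr2 A ((Λ : ℂ) • w⁻¹ - 1) x = Λ * tr2 A w⁻¹ x - (xᴴ * A * x).trace.re := by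
    rw [tr2, tr2, Matrix.sub_mul, Matrix.mul_sub, Matrix.trace_sub, Complex.sub_re, Matrix.one_mul,
      Matrix.smul_mul, Matrix.mul_smul, Matrix.trace_smul, smul_eq_mul, Complex.re_ofReal_mul,
      hx.eq, Matrix.trace_mul_comm (x * A) x, ← Matrix.mul_assoc x x A,
      Matrix.trace_mul_comm (x * x) A, Matrix.mul_assoc A x x]
  rw [h1]
  linarith

end

end Vale.Agent.P284.H402.B
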