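import Vale.Agent.P284.H402.B.TF5
import Vale.Agent.P284.H894.V.Final

/-!
# P284 (helper402): the case `q = 0`; nonvanishing for general sequences
-/

open scoped Manifold ContDiff Topology Pointwise ComplexConjugate ComplexOrder Matrix
open Filter Set Metric MeasureTheory

noncomputable section

namespace Vale.Agent.P284.H402.B

open Vale.Agent.P272.K Vale.Agent.P272.K.C2 Vale.Agent.P284.H248 Vale.Agent.P284.H894
  Vale.Agent.P284.H894.G Vale.Agent.P284.H894.V Vale.Agent.P284.H402.A Vale.Agent.P284.H639.V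
  Vale.Agent.P284.H366

section glob
variable {n q : ℕ} {Γ : Type} [Group Γ] {C : Coc n Γ}

/-- the limit of a sequence of test functions of energy `1` does not vanish -/
theorem nonvan_of {P : PU C} {K : KM C} {θ : HF C q} {f : ℕ → Γ → C.I → Cm n → ℝ}
    (hf : ∀ k, IsTst C (f k)) (hone : ∀ k, en P K θ 0 (f k) (f k) = 1) {U : Ultrafilter ℕ}
    (hT : TSeq U fun k => tf θ (hf k)) (D : MD C) (γ : Γ) :
    ∃ a, ∃ z ∈ D.Q a, LimS D U (fun k => tf θ (hf k)) γ a z ≠ 0 := by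
  by_contra hcon
  push Not at hcon
  obtain ⟨B, hB0, hB⟩ := vA_up K θ
  have hlim : ∀ a, ∀ J : Fin (q + 1) → Fin n, Tendsto (fun k => ∑ g ∈ (tf θ (hf k)).S,
      ∫ z in D.Q a, ‖(tf θ (hf k)).s g a z (eJ J)‖ ^ 2) U (𝓝 0) := fun a J =>
    LimS_zero D hT γ a (hcon a) (eJ J)
  have h1 : ∀ k, (1 : ℝ) ≤ Fintype.card C.I * ∑ a, ∑ J : Fin (q + 1) → Fin n,
      (B * |K.Lam|) * ∑ g ∈ (tf θ (hf k)).S,
        ∫ z in D.Q a, ‖(tf θ (hf k)).s g a z (eJ J)‖ ^ 2 := by
    intro k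
    have hfk := hf k
    have h2 := H913.V.v3Stmt.ge C P K _ (fam_vA hfk hfk K θ 0) fun γ a z hz => vA_nn K θ (f k) γ hz
    have h3 : Int P K (vA K θ 0 (f k) (f k)) = 1 := hone k
    rw [h3] at h2
    refine h2.trans (mul_le_mul_of_nonneg_left ?_ (Nat.cast_nonneg _))
    have hout : ∀ γ ∉ (tf θ hfk).S, ∀ a, ∀ z ∈ C.W a,
        vA K θ 0 (f k) (f k) γ a z = 0 := by
      intro γ hγ a z hz
      have hzV : z ∈ C.V a := D.Q_sub a (D.W_sub a hz)
      have h4 := hB (f k) hfk γ a z hzV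
      have h5 : ∀ J, (tf θ hfk).s γ a z (eJ J) = 0 := fun J => by
        rw [(tf θ hfk).out γ hγ a z hzV]
        rfl
      simp only [h5, norm_zero, ne_eq, OfNat.ofNat_ne_zero, not_false_eq_true, zero_pow,
        Finset.sum_const_zero, mul_zero] at h4
      exact le_antisymm h4 (vA_nn K θ (f k) γ (H366.V_sub_Ω C a hzV))
    have hW : ∀ a, MeasurableSet (C.W a) := fun a => isOpen_ball.measurableSet
    rw [tsum_eq_sum (s := (tf θ hfk).S) fun γ hγ => Finset.sum_eq_zero fun a _ => by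
      rw [setIntegral_congr_fun (g := fun _ => (0 : ℝ)) (hW a) fun z hz => by
        simp only [hout γ hγ a z hz, zero_mul], integral_zero]]
    rw [Finset.sum_comm]
    refine Finset.sum_le_sum fun a _ => ?_
    rw [← Finset.mul_sum, Finset.sum_comm, Finset.mul_sum]
    refine Finset.sum_le_sum fun g _ => ?_
    have hQ : MeasurableSet (D.Q a) := (D.Q_open a).measurableSet
    have hi : ∀ J : Fin (q + 1) → Fin n,
        IntegrableOn (fun z => ‖(tf θ hfk).s g a z (eJ J)‖ ^ 2) (D.Q a) := fun J =>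
      ((tf θ hfk).int1 g a (eJ J)).mono_set (D.Q_sub a)
    have hvi : IntegrableOn (fun z => vA K θ 0 (f k) (f k) g a z * vol (K.w a) z) (C.V a) :=
      H913.V.intV (((fam_vA hfk hfk K θ 0).cont g a).mul (H913.V.vol_cont K a))
    have h6 : ∫ z in C.W a, vA K θ 0 (f k) (f k) g a z * vol (K.w a) z ≤
        ∫ z in D.Q a, vA K θ 0 (f k) (f k) g a z * vol (K.w a) z := by
      refine setIntegral_mono_set (hvi.mono_set (D.Q_sub a)) ?_ (D.W_sub a).eventuallyLE
      filter_upwards [ae_restrict_mem hQ] with z hz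
      have hz' := H366.V_sub_Ω C a (D.Q_sub a hz)
      exact mul_nonneg (vA_nn K θ (f k) g hz') (H913.V.vol_nn K hz')
    refine h6.trans ?_
    rw [← integral_finsetSum _ fun J _ => hi J, ← integral_const_mul]
    refine setIntegral_mono_on (hvi.mono_set (D.Q_sub a))
      ((integrable_finsetSum _ fun J _ => hi J).const_mul _) hQ fun z hz => ?_
    have hzV := D.Q_sub a hz
    have hz' := H366.V_sub_Ω C a hzV
    have h7 := hB (f k) hfk g a z hzV
    have h8 := K.vol_up a z hz'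
    have h9 := H913.V.vol_nn K hz'
    have h10 : 0 ≤ ∑ J : Fin (q + 1) → Fin n, ‖(tf θ hfk).s g a z (eJ J)‖ ^ 2 :=
      Finset.sum_nonneg fun J _ => sq_nonneg _
    calc vA K θ 0 (f k) (f k) g a z * vol (K.w a) z
        ≤ (B * ∑ J : Fin (q + 1) → Fin n, ‖(tf θ hfk).s g a z (eJ J)‖ ^ 2) * |K.Lam| :=
          mul_le_mul h7 (h8.trans (le_abs_self _)) h9 (mul_nonneg hB0 h10)
      _ = _ := by ring
  have h2 : Tendsto (fun k => (Fintype.card C.I : ℝ) * ∑ a, ∑ J : Fin (q + 1) → Fin n,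
      (B * |K.Lam|) * ∑ g ∈ (tf θ (hf k)).S,
        ∫ z in D.Q a, ‖(tf θ (hf k)).s g a z (eJ J)‖ ^ 2) U (𝓝 0) := by
    have h3 := (tendsto_finsetSum (Finset.univ : Finset C.I) fun a _ =>
      tendsto_finsetSum (Finset.univ : Finset (Fin (q + 1) → Fin n)) fun J _ =>
        (hlim a J).const_mul (B * |K.Lam|)).const_mul (Fintype.card C.I : ℝ)
    simpa using h3
  exact absurd (ge_of_tendsto' h2 h1) (by norm_num)

/-! ### `q = 0` -/

/-- the empty family of forms -/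
def th0 (C : Coc n Γ) : HF C 0 where
  th _ _ := 0
  holo _ _ j := j.elim0
  closed _ _ _ _ j := j.elim0
  change _ _ _ _ := by
    ext i j
    exact j.elim0
  B := 0
  bd _ _ _ _ j := j.elim0
  dense _ U _ hU _ := by
    obtain ⟨z, hz⟩ := hU
    exact ⟨z, hz, fun x y _ => Subsingleton.elim x y⟩

lemma AA_zero (w : Matrix (Fin n) (Fin n) ℂ) (θ : Matrix (Fin n) (Fin 0) ℂ) : AA w θ 0 = w⁻¹ := by
  have h1 : (TT w θ 0).det = 1 := Matrix.det_isEmpty
  have h2 : w⁻¹ * θ = 0 := by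
    ext i j
    exact j.elim0
  rw [AA, h1, one_smul, h2]
  simp

lemma vA_zero (K : KM C) (θ : HF C 0) (f h : Γ → C.I → Cm n → ℝ) (γ : Γ) (a : C.I) (z : Cm n) :
    vA K θ 0 f h γ a z = Gr K f h γ a z := by
  rw [vA, AA_zero, qf_eq, Gr, H730.V.gr_eq]
  rfl

lemma oA_zero (K : KM C) (θ : HF C 0) (f : Γ → C.I → Cm n → ℝ) (γ : Γ) (a : C.I) (z : Cm n) :
    oA K θ f γ a z = Hh K f f γ a z := by
  rw [oA, AA_zero, hh_eq]

/-- **the sequence for `q = 0`** -/
theorem exists_seq0 (hF : Folner Γ) [Infinite Γ] (P : PU C) (K : KM C) (θ : HF C 0) :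
    ∃ f : ℕ → Γ → C.I → Cm n → ℝ, (∀ k, IsTst C (f k)) ∧ (∀ k, en P K θ 0 (f k) (f k) = 1) ∧
      Tendsto (fun k => Int P K (oA K θ (f k))) atTop (𝓝 0) := by
  choose f hf hlt using fun k : ℕ => H894.V.exConcl n Γ C P K hF (1 / ((k : ℝ) + 1))
    (by positivity)
  have e1 : ∀ g : Γ → C.I → Cm n → ℝ, en P K θ 0 g g = Int P K (Gr K g g) := fun g =>
    Int_cg K P fun γ a z _ => vA_zero K θ g g γ a z
  have e2 : ∀ g : Γ → C.I → Cm n → ℝ, Int P K (oA K θ g) = Int P K (Hh K g g) := fun g =>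
    Int_cg K P fun γ a z _ => oA_zero K θ g γ a z
  have hoA : ∀ k, 0 ≤ Int P K (oA K θ (f k)) := fun k =>
    Asm.Int_nonneg H913.V.v3Stmt P K (fam_oA (hf k) K θ) fun γ a z hz =>
      oA_nn K θ (hf k) γ (Asm.V_sub_Ω C a hz)
  have hlt' : ∀ k, Int P K (oA K θ (f k)) < 1 / ((k : ℝ) + 1) * en P K θ 0 (f k) (f k) := fun k => by
    rw [e1, e2]
    exact hlt k
  have hpos : ∀ k, 0 < en P K θ 0 (f k) (f k) := by
    intro k
    have h1 := (hoA k).trans_lt (hlt' k)
    have h2 : (0 : ℝ) < 1 / ((k : ℝ) + 1) := by positivity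
    exact (pos_iff_pos_of_mul_pos h1).1 h2
  set r : ℕ → ℝ := fun k => (Real.sqrt (en P K θ 0 (f k) (f k)))⁻¹ with hr
  have hr2 : ∀ k, r k ^ 2 = (en P K θ 0 (f k) (f k))⁻¹ := fun k => by
    rw [hr]
    simp only
    rw [inv_pow, Real.sq_sqrt (hpos k).le]
  refine ⟨fun k => sc (r k) (f k), fun k => isTst_sc _ (hf k), fun k => ?_, ?_⟩
  · rw [en_sc K θ P _ (hf k), hr2]
    exact inv_mul_cancel₀ (hpos k).ne'
  · have e3 : ∀ k, Int P K (oA K θ (sc (r k) (f k))) = r k ^ 2 * Int P K (oA K θ (f k)) := by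
      intro k
      rw [← Int_mul H913.V.v3Stmt P K (fam_oA (hf k) K θ)]
      exact Int_cg K P fun γ a z hz => oA_sc K θ (r k) (hf k) γ hz
    refine squeeze_zero (fun k => ?_) (fun k => ?_) tendsto_one_div_add_atTop_nhds_zero_nat
    · rw [e3]
      exact mul_nonneg (sq_nonneg _) (hoA k)
    · rw [e3, hr2, inv_mul_le_iff₀ (hpos k)]
      have := (hlt' k).le
      linarith

end glob

end Vale.Agent.P284.H402.B
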