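import Vale.Agent.P284.H402.B.TF3
import Vale.Agent.P284.H366.LS3

/-!
# P284 (helper402): the sequence of test forms; its limit does not vanish and is invariant under the
central elements
-/

open scoped Manifold ContDiff Topology Pointwise ComplexConjugate ComplexOrder Matrix
open Filter Set Metric MeasureTheory

noncomputable section

namespace Vale.Agent.P284.H402.B

open Vale.Agent.P272.K Vale.Agent.P272.K.C2 Vale.Agent.P284.H248 Vale.Agent.P284.H894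
  Vale.Agent.P284.H894.G Vale.Agent.P284.H894.V Vale.Agent.P284.H402.A Vale.Agent.P284.H639.V
  Vale.Agent.P284.H366

section glob
variable {n q : ℕ} {Γ : Type} [Group Γ] {C : Coc n Γ} {f m : Γ → C.I → Cm n → ℝ}

lemma tf_eq_tfm (θ : HF C q) (hf : IsTst C f) : tf θ hf = tfm θ hf := rfl

lemma tf_closed (θ : HF C q) (hf : IsTst C f) : (tf θ hf).Closed := tfm_closed θ hf

/-- one chart is dominated by the total integral -/
lemma sum_V_le (P : PU C) (K : KM C) {G : Γ → C.I → Cm n → ℝ} (hG : Fam C G)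
    (h0 : ∀ γ a, ∀ z ∈ C.Ω a, 0 ≤ G γ a z) (a : C.I) (S : Finset Γ) :
    ∑ γ ∈ S, ∫ z in C.V a, G γ a z ≤ K.lam⁻¹ * Int P K G := by
  have h1 := H913.V.v3Stmt.le C P K G hG h0 a
  have hV := (H913.V.isOpen_V C a).measurableSet
  have hnn : ∀ γ, 0 ≤ ∫ z in C.V a, G γ a z * vol (K.w a) z := fun γ =>
    setIntegral_nonneg hV fun z hz => mul_nonneg (h0 γ a z (H913.V.V_sub C a hz))
      (H913.V.vol_nn K (H913.V.V_sub C a hz))
  have hs : Summable fun γ => ∫ z in C.V a, G γ a z * vol (K.w a) z := by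
    refine summable_of_ne_finset_zero (s := H913.V.fs hG) fun γ hγ => ?_
    rw [setIntegral_congr_fun (g := fun _ => (0 : ℝ)) hV fun z hz => by
      simp only [H913.V.fs_out hG hγ hz, zero_mul], integral_zero]
  have h2 : ∑ γ ∈ S, ∫ z in C.V a, G γ a z * vol (K.w a) z ≤
      ∑' γ, ∫ z in C.V a, G γ a z * vol (K.w a) z := hs.sum_le_tsum S fun γ _ => hnn γ
  have h3 : ∀ γ, ∫ z in C.V a, G γ a z ≤ K.lam⁻¹ * ∫ z in C.V a, G γ a z * vol (K.w a) z := by
    intro γ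
    rw [← integral_const_mul]
    refine setIntegral_mono_on (H913.V.intV (hG.cont γ a))
      ((H913.V.intV ((hG.cont γ a).mul (H913.V.vol_cont K a))).const_mul _) hV fun z hz => ?_
    have hz' := H913.V.V_sub C a hz
    have h4 := K.vol_low a z hz'
    have h5 := h0 γ a z hz'
    have h6 : 1 ≤ K.lam⁻¹ * vol (K.w a) z := by
      rw [inv_mul_eq_div, le_div_iff₀ K.lam_pos, one_mul]
      exact h4
    calc G γ a z = G γ a z * 1 := (mul_one _).symm
      _ ≤ G γ a z * (K.lam⁻¹ * vol (K.w a) z) := mul_le_mul_of_nonneg_left h6 h5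
      _ = _ := by ring
  calc ∑ γ ∈ S, ∫ z in C.V a, G γ a z
      ≤ ∑ γ ∈ S, K.lam⁻¹ * ∫ z in C.V a, G γ a z * vol (K.w a) z :=
        Finset.sum_le_sum fun γ _ => h3 γ
    _ = K.lam⁻¹ * ∑ γ ∈ S, ∫ z in C.V a, G γ a z * vol (K.w a) z := (Finset.mul_sum _ _ _).symm
    _ ≤ _ := mul_le_mul_of_nonneg_left (h2.trans h1) (inv_pos.2 K.lam_pos).le

/-- bound of the volume of a frame -/
lemma exists_bX (K : KM C) {p : ℕ} (ξ : Fin p → Cm n) : ∃ B : ℝ, 0 ≤ B ∧ ∀ a, ∀ z ∈ C.V a,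
    (Matrix.of ξ * K.w a z * (Matrix.of ξ)ᴴ).det.re ≤ B := by
  have h1 : ∀ a, ∃ B : ℝ, ∀ z ∈ closedBall (C.c a) (3 * C.r a),
      ‖(Matrix.of ξ * K.w a z * (Matrix.of ξ)ᴴ).det.re‖ ≤ B := by
    intro a
    refine (isCompact_closedBall _ _).exists_bound_of_continuousOn fun z hz => ?_
    have hz' : z ∈ C.Ω a := cb_sub_Ω C a hz
    have h2 : ContDiffAt ℝ ∞ (fun y => (Matrix.of ξ * K.w a y * (Matrix.of ξ)ᴴ).det) z :=
      MC.det (MC.mul (MC.mul (mc_const _) (w_mc K hz')) (mc_const _))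
    exact (Complex.continuous_re.continuousAt.comp h2.continuousAt).continuousWithinAt
  choose B hB using h1
  refine ⟨∑ a, |B a|, Finset.sum_nonneg fun a _ => abs_nonneg _, fun a z hz => ?_⟩
  have h3 := hB a z (ball_subset_closedBall hz)
  rw [Real.norm_eq_abs] at h3
  have h4 : |B a| ≤ ∑ a, |B a| := Finset.single_le_sum (f := fun a => |B a|)
    (fun a _ => abs_nonneg _) (Finset.mem_univ a)
  linarith [le_abs_self ((Matrix.of ξ * K.w a z * (Matrix.of ξ)ᴴ).det.re), le_abs_self (B a)]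

lemma vA_nn (K : KM C) (θ : HF C q) (f : Γ → C.I → Cm n → ℝ) (γ : Γ) {a : C.I} {z : Cm n}
    (hz : z ∈ C.Ω a) : 0 ≤ vA K θ 0 f f γ a z :=
  qf_nonneg (H279.a2Stmt.herm _ _ 0 (w_pos K hz) le_rfl) _

lemma oA_nn (K : KM C) (θ : HF C q) (hf : IsTst C f) (γ : Γ) {a : C.I} {z : Cm n}
    (hz : z ∈ C.Ω a) : 0 ≤ oA K θ f γ a z :=
  tr2_nonneg (H279.a2Stmt.herm _ _ 0 (w_pos K hz) le_rfl) (w_pos K hz).inv.posSemidef
    (herm_f hf γ hz)

/-- `L²` bound of the values -/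
theorem tf_L2 (P : PU C) (K : KM C) (θ : HF C q) (ξ : Fin (q + 1) → Cm n) :
    ∃ B : ℝ, 0 ≤ B ∧ ∀ (f : Γ → C.I → Cm n → ℝ) (hf : IsTst C f) (S : Finset Γ) (a : C.I),
      ∑ g ∈ S, ∫ z in C.V a, ‖(tf θ hf).s g a z ξ‖ ^ 2 ≤ B * en P K θ 0 f f := by
  obtain ⟨B, hB0, hB⟩ := exists_bX K ξ
  refine ⟨B * K.lam⁻¹, mul_nonneg hB0 (inv_pos.2 K.lam_pos).le, fun f hf S a => ?_⟩
  have hV := (H913.V.isOpen_V C a).measurableSet
  have h1 : ∀ g, ∫ z in C.V a, ‖(tf θ hf).s g a z ξ‖ ^ 2 ≤ B * ∫ z in C.V a, vA K θ 0 f f g a z := by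
    intro g
    rw [← integral_const_mul]
    refine setIntegral_mono_on ((tf θ hf).int1 g a ξ)
      ((H913.V.intV ((fam_vA hf hf K θ 0).cont g a)).const_mul _) hV fun z hz => ?_
    have hz' := H913.V.V_sub C a hz
    exact (tfm_bound H279.a2Stmt K θ hf g hz' ξ).trans
      (mul_le_mul_of_nonneg_right (hB a z hz) (vA_nn K θ f g hz'))
  calc ∑ g ∈ S, ∫ z in C.V a, ‖(tf θ hf).s g a z ξ‖ ^ 2
      ≤ ∑ g ∈ S, B * ∫ z in C.V a, vA K θ 0 f f g a z := Finset.sum_le_sum fun g _ => h1 g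
    _ = B * ∑ g ∈ S, ∫ z in C.V a, vA K θ 0 f f g a z := (Finset.mul_sum _ _ _).symm
    _ ≤ B * (K.lam⁻¹ * Int P K (vA K θ 0 f f)) := mul_le_mul_of_nonneg_left
        (sum_V_le P K (fam_vA hf hf K θ 0) (fun γ a z hz => vA_nn K θ f γ hz) a S) hB0
    _ = _ := by rw [en]; ring

/-- `L²` bound of the antilinear derivatives -/
theorem tf_DB2 (P : PU C) (K : KM C) (θ : HF C q) (ξ : Fin (q + 1) → Cm n) :
    ∃ B : ℝ, 0 ≤ B ∧ ∀ (f : Γ → C.I → Cm n → ℝ) (hf : IsTst C f) (S : Finset Γ) (a : C.I),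
      ∑ g ∈ S, ∫ z in C.V a, ‖DB (fun y => (tf θ hf).s g a y ξ) z‖ ^ 2 ≤
        B * Int P K (oA K θ f) := by
  obtain ⟨B, hB0, hB⟩ := exists_bX K ξ
  have hL : 0 ≤ |K.Lam| * n := by positivity
  refine ⟨B * (|K.Lam| * n) * K.lam⁻¹, mul_nonneg (mul_nonneg hB0 hL) (inv_pos.2 K.lam_pos).le,
    fun f hf S a => ?_⟩
  have hV := (H913.V.isOpen_V C a).measurableSet
  have h1 : ∀ g, ∫ z in C.V a, ‖DB (fun y => (tf θ hf).s g a y ξ) z‖ ^ 2 ≤
      B * (|K.Lam| * n) * ∫ z in C.V a, oA K θ f g a z := by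
    intro g
    rw [← integral_const_mul]
    refine setIntegral_mono_on ((tf θ hf).int2 g a ξ)
      ((H913.V.intV ((fam_oA hf K θ).cont g a)).const_mul _) hV fun z hz => ?_
    have hz' := H913.V.V_sub C a hz
    exact (tfm_DB H279.a2Stmt K θ hf g hz' ξ).trans
      (mul_le_mul_of_nonneg_right (mul_le_mul_of_nonneg_right (hB a z hz) hL) (oA_nn K θ hf g hz'))
  calc ∑ g ∈ S, ∫ z in C.V a, ‖DB (fun y => (tf θ hf).s g a y ξ) z‖ ^ 2
      ≤ ∑ g ∈ S, B * (|K.Lam| * n) * ∫ z in C.V a, oA K θ f g a z :=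
        Finset.sum_le_sum fun g _ => h1 g
    _ = B * (|K.Lam| * n) * ∑ g ∈ S, ∫ z in C.V a, oA K θ f g a z := (Finset.mul_sum _ _ _).symm
    _ ≤ B * (|K.Lam| * n) * (K.lam⁻¹ * Int P K (oA K θ f)) := mul_le_mul_of_nonneg_left
        (sum_V_le P K (fam_oA hf K θ) (fun γ a z hz => oA_nn K θ hf γ hz) a S) (mul_nonneg hB0 hL)
    _ = _ := by ring

/-- **a sequence of test functions with bounded energy and `∫ oA → 0`** -/
theorem tseq_of (P : PU C) (K : KM C) (θ : HF C q) {U : Ultrafilter ℕ}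
    {f : ℕ → Γ → C.I → Cm n → ℝ} (hf : ∀ k, IsTst C (f k)) {M : ℝ}
    (hM : ∀ k, en P K θ 0 (f k) (f k) ≤ M)
    (h0 : Tendsto (fun k => Int P K (oA K θ (f k))) U (𝓝 0)) : TSeq U fun k => tf θ (hf k) where
  bd a ξ := by
    obtain ⟨B, hB0, hB⟩ := tf_L2 P K θ ξ
    exact ⟨B * M, fun k => (hB (f k) (hf k) _ a).trans (mul_le_mul_of_nonneg_left (hM k) hB0)⟩
  dbar a ξ := by
    obtain ⟨B, hB0, hB⟩ := tf_DB2 P K θ ξ
    refine squeeze_zero (fun k => Finset.sum_nonneg fun g _ => integral_nonneg fun z => sq_nonneg _)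
      (fun k => hB (f k) (hf k) _ a) ?_
    simpa using h0.const_mul B

variable {K : KM C} {θ : HF C q} {P : PU C} {ι : Type} [Fintype ι] {c : ι → Γ}

theorem ASeq.tseq (A : ASeq K θ P c) {U : Ultrafilter ℕ} (hU : (U : Filter ℕ) ≤ atTop) :
    TSeq U fun k => tf θ (A.tst k) := by
  refine tseq_of P K θ A.tst (M := 1) (fun k => (A.one k).le) ?_
  have h1 : Tendsto (fun k => A.c₀ * A.ε k) U (𝓝 0) := by
    simpa using (A.lim.mono_left hU).const_mul A.c₀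
  refine squeeze_zero (fun k => ?_) (fun k => A.oA_le k) h1
  exact Asm.Int_nonneg H913.V.v3Stmt P K (fam_oA (A.tst k) K θ) fun γ a z hz =>
    oA_nn K θ (A.tst k) γ (Asm.V_sub_Ω C a hz)

/-! ### The limit does not vanish -/

/-- upper bound of the density of the energy -/
lemma vA_up (K : KM C) (θ : HF C q) : ∃ B : ℝ, 0 ≤ B ∧ ∀ (f : Γ → C.I → Cm n → ℝ)
    (hf : IsTst C f) (γ : Γ) (a : C.I), ∀ z ∈ C.V a,
      vA K θ 0 f f γ a z ≤ B * ∑ J : Fin (q + 1) → Fin n, ‖(tf θ hf).s γ a z (eJ J)‖ ^ 2 := by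
  have h1 : ∀ a, ∃ B : ℝ, ∀ z ∈ closedBall (C.c a) (3 * C.r a),
      ‖∑ J : Fin (q + 1) → Fin n, ∑ L : Fin (q + 1) → Fin n,
        ‖((K.w a z)⁻¹.submatrix J L).det‖‖ ≤ B := by
    intro a
    refine (isCompact_closedBall _ _).exists_bound_of_continuousOn fun z hz => ?_
    have hz' : z ∈ C.Ω a := cb_sub_Ω C a hz
    have h2 : ∀ J L : Fin (q + 1) → Fin n,
        ContDiffAt ℝ ∞ (fun y => ((K.w a y)⁻¹.submatrix J L).det) z := fun J L =>
      MC.det fun i j => (MC.inv (w_mc K hz') (w_det K hz')) (J i) (L j)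
    refine (tendsto_finsetSum _ fun J _ => tendsto_finsetSum _ fun L _ =>
      (h2 J L).continuousAt.norm).mono_left nhdsWithin_le_nhds
  choose B hB using h1
  refine ⟨∑ a, |B a|, Finset.sum_nonneg fun a _ => abs_nonneg _, fun f hf γ a z hz => ?_⟩
  have h3 := hB a z (ball_subset_closedBall hz)
  rw [Real.norm_eq_abs] at h3
  have h4 : |B a| ≤ ∑ a, |B a| := Finset.single_le_sum (f := fun a => |B a|)
    (fun a _ => abs_nonneg _) (Finset.mem_univ a)
  rw [vA_eq H279.a2Stmt K θ hf γ (H366.V_sub_Ω C a hz)]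
  refine (hN_le _ _).trans (mul_le_mul_of_nonneg_right ?_
    (Finset.sum_nonneg fun J _ => sq_nonneg _))
  exact (le_abs_self _).trans (h3.trans ((le_abs_self _).trans h4))

theorem ASeq.nonvan (A : ASeq K θ P c) {U : Ultrafilter ℕ} (hU : (U : Filter ℕ) ≤ atTop)
    (D : MD C) (γ : Γ) : ∃ a, ∃ z ∈ D.Q a, LimS D U (fun k => tf θ (A.tst k)) γ a z ≠ 0 := by
  by_contra hcon
  push Not at hcon
  have hT := A.tseq hU
  obtain ⟨B, hB0, hB⟩ := vA_up K θ
  have hlim : ∀ a, ∀ J : Fin (q + 1) → Fin n, Tendsto (fun k => ∑ g ∈ (tf θ (A.tst k)).S,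
      ∫ z in D.Q a, ‖(tf θ (A.tst k)).s g a z (eJ J)‖ ^ 2) U (𝓝 0) := fun a J =>
    LimS_zero D hT γ a (hcon a) (eJ J)
  have hL : 0 ≤ |K.Lam| := abs_nonneg _
  have h1 : ∀ k, (1 : ℝ) ≤ Fintype.card C.I * ∑ a, ∑ J : Fin (q + 1) → Fin n,
      (B * |K.Lam|) * ∑ g ∈ (tf θ (A.tst k)).S,
        ∫ z in D.Q a, ‖(tf θ (A.tst k)).s g a z (eJ J)‖ ^ 2 := by
    intro k
    have hf := A.tst k
    have h2 := H913.V.v3Stmt.ge C P K _ (fam_vA hf hf K θ 0) fun γ a z hz => vA_nn K θ (A.f k) γ hz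
    have h3 : Int P K (vA K θ 0 (A.f k) (A.f k)) = 1 := A.one k
    rw [h3] at h2
    refine h2.trans (mul_le_mul_of_nonneg_left ?_ (Nat.cast_nonneg _))
    have hout : ∀ γ ∉ (tf θ hf).S, ∀ a, ∀ z ∈ C.W a,
        vA K θ 0 (A.f k) (A.f k) γ a z = 0 := by
      intro γ hγ a z hz
      have hzV : z ∈ C.V a := D.Q_sub a (D.W_sub a hz)
      have h4 := hB (A.f k) hf γ a z hzV
      have h5 : ∀ J, (tf θ hf).s γ a z (eJ J) = 0 := fun J => by
        rw [(tf θ hf).out γ hγ a z hzV]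
        rfl
      simp only [h5, norm_zero, ne_eq, OfNat.ofNat_ne_zero, not_false_eq_true, zero_pow,
        Finset.sum_const_zero, mul_zero] at h4
      exact le_antisymm h4 (vA_nn K θ (A.f k) γ (H366.V_sub_Ω C a hzV))
    have hW : ∀ a, MeasurableSet (C.W a) := fun a => isOpen_ball.measurableSet
    rw [tsum_eq_sum (s := (tf θ hf).S) fun γ hγ => Finset.sum_eq_zero fun a _ => by
      rw [setIntegral_congr_fun (g := fun _ => (0 : ℝ)) (hW a) fun z hz => by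
        simp only [hout γ hγ a z hz, zero_mul], integral_zero]]
    rw [Finset.sum_comm]
    refine Finset.sum_le_sum fun a _ => ?_
    rw [← Finset.mul_sum, Finset.sum_comm, Finset.mul_sum]
    refine Finset.sum_le_sum fun g _ => ?_
    have hQ : MeasurableSet (D.Q a) := (D.Q_open a).measurableSet
    have hi : ∀ J : Fin (q + 1) → Fin n,
        IntegrableOn (fun z => ‖(tf θ hf).s g a z (eJ J)‖ ^ 2) (D.Q a) := fun J =>
      ((tf θ hf).int1 g a (eJ J)).mono_set (D.Q_sub a)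
    have hvi : IntegrableOn (fun z => vA K θ 0 (A.f k) (A.f k) g a z * vol (K.w a) z) (C.V a) :=
      H913.V.intV (((fam_vA hf hf K θ 0).cont g a).mul (H913.V.vol_cont K a))
    have h6 : ∫ z in C.W a, vA K θ 0 (A.f k) (A.f k) g a z * vol (K.w a) z ≤
        ∫ z in D.Q a, vA K θ 0 (A.f k) (A.f k) g a z * vol (K.w a) z := by
      refine setIntegral_mono_set (hvi.mono_set (D.Q_sub a)) ?_ (D.W_sub a).eventuallyLE
      filter_upwards [ae_restrict_mem hQ] with z hz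
      have hz' := H366.V_sub_Ω C a (D.Q_sub a hz)
      exact mul_nonneg (vA_nn K θ (A.f k) g hz') (H913.V.vol_nn K hz')
    refine h6.trans ?_
    rw [← integral_finsetSum _ fun J _ => hi J, ← integral_const_mul]
    refine setIntegral_mono_on (hvi.mono_set (D.Q_sub a))
      ((integrable_finsetSum _ fun J _ => hi J).const_mul _) hQ fun z hz => ?_
    have hzV := D.Q_sub a hz
    have hz' := H366.V_sub_Ω C a hzV
    have h7 := hB (A.f k) hf g a z hzV
    have h8 := K.vol_up a z hz'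
    have h9 := H913.V.vol_nn K hz'
    have h10 : 0 ≤ ∑ J : Fin (q + 1) → Fin n, ‖(tf θ hf).s g a z (eJ J)‖ ^ 2 :=
      Finset.sum_nonneg fun J _ => sq_nonneg _
    calc vA K θ 0 (A.f k) (A.f k) g a z * vol (K.w a) z
        ≤ (B * ∑ J : Fin (q + 1) → Fin n, ‖(tf θ hf).s g a z (eJ J)‖ ^ 2) * |K.Lam| :=
          mul_le_mul h7 (h8.trans (le_abs_self _)) h9 (mul_nonneg hB0 h10)
      _ = _ := by ring
  have h2 : Tendsto (fun k => (Fintype.card C.I : ℝ) * ∑ a, ∑ J : Fin (q + 1) → Fin n,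
      (B * |K.Lam|) * ∑ g ∈ (tf θ (A.tst k)).S,
        ∫ z in D.Q a, ‖(tf θ (A.tst k)).s g a z (eJ J)‖ ^ 2) U (𝓝 0) := by
    have h3 := (tendsto_finsetSum (Finset.univ : Finset C.I) fun a _ =>
      tendsto_finsetSum (Finset.univ : Finset (Fin (q + 1) → Fin n)) fun J _ =>
        (hlim a J).const_mul (B * |K.Lam|)).const_mul (Fintype.card C.I : ℝ)
    simpa using h3
  exact absurd (ge_of_tendsto' h2 h1) (by norm_num)

end glob

end Vale.Agent.P284.H402.B
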